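import Vale.Agent.P237.Quant.TailData.N33.tailN33P0Part0
import Vale.Agent.P237.Quant.TailData.N33.tailN33P0Part1
import Vale.Agent.P237.Quant.TailData.N33.tailN33P0Part2
import Vale.Agent.P237.Quant.TailData.N33.tailN33P0Part3
import Vale.Agent.P237.Quant.TailData.N33.tailN33P0Part4

/-!
Tail calibration tailN33P0 in dimension 33. The check. Generated data, checked by the kernel.
-/

set_option maxRecDepth 100000
set_option linter.all false

namespace Vale.Agent.P237.Quant.TailData

open TailCert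


/-- The calibration. -/
noncomputable def tailN33P0 : Cfg :=
  tailN33P0Base.withIvals (List.flatten [tailN33P0L0, tailN33P0L1, tailN33P0L2, tailN33P0L3, tailN33P0L4, tailN33P0L5, tailN33P0L6, tailN33P0L7, tailN33P0L8, tailN33P0L9, tailN33P0L10, tailN33P0L11, tailN33P0L12, tailN33P0L13, tailN33P0L14, tailN33P0L15, tailN33P0L16, tailN33P0L17, tailN33P0L18, tailN33P0L19])

theorem tailN33P0_parts : [tailN33P0L0, tailN33P0L1, tailN33P0L2, tailN33P0L3, tailN33P0L4, tailN33P0L5, tailN33P0L6, tailN33P0L7, tailN33P0L8, tailN33P0L9, tailN33P0L10, tailN33P0L11, tailN33P0L12, tailN33P0L13, tailN33P0L14, tailN33P0L15, tailN33P0L16, tailN33P0L17, tailN33P0L18, tailN33P0L19].Forall fun l => tailN33P0Base.partUsed tailN33P0Used l = true := by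
  simp only [List.forall_cons, List.Forall]
  exact ⟨tailN33P0L0_ok, tailN33P0L1_ok, tailN33P0L2_ok, tailN33P0L3_ok, tailN33P0L4_ok, tailN33P0L5_ok, tailN33P0L6_ok, tailN33P0L7_ok, tailN33P0L8_ok, tailN33P0L9_ok, tailN33P0L10_ok, tailN33P0L11_ok, tailN33P0L12_ok, tailN33P0L13_ok, tailN33P0L14_ok, tailN33P0L15_ok, tailN33P0L16_ok, tailN33P0L17_ok, tailN33P0L18_ok, tailN33P0L19_ok⟩

theorem tailN33P0_check : tailN33P0.check = true :=
  Cfg.check_of_parts (by decide +kernel) tailN33P0_parts

end Vale.Agent.P237.Quant.TailData
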